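import Mathlib

/-!
A numeric lemma on natural numbers used for P160: a factorial dominates `2 ^ (9 * n)`.
-/

namespace Vale.Agent.Lib.P160

/-- For `L ≥ 100`, `L ≤ 2 ^ (L / 2)`. -/
theorem h76_le_two_rpow_half (L : ℝ) (hL : 100 ≤ L) : L ≤ (2 : ℝ) ^ (L / 2) := by
  have h1 : (2 : ℝ) ^ (L / 2) = Real.exp (Real.log 2 * (L / 2)) := by
    rw [Real.rpow_def_of_pos (by norm_num : (0 : ℝ) < 2)]
  rw [h1]
  have hlog : (0.69 : ℝ) < Real.log 2 := by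
    have := Real.log_two_gt_d9
    linarith
  have hy : 0 ≤ Real.log 2 * (L / 2) := by positivity
  have h2 := Real.quadratic_le_exp_of_nonneg hy
  have hy1 : 0.345 * L ≤ Real.log 2 * (L / 2) := by nlinarith
  have hy2 : (0.345 * L) ^ 2 ≤ (Real.log 2 * (L / 2)) ^ 2 :=
    pow_le_pow_left₀ (by positivity) hy1 2
  nlinarith

/-- The numeric lemma: if `100 ≤ ε * logb 2 n` and `ε ≤ 1` then `2 ^ (9 n)` is at most the
factorial of `n - ⌊(1 - ε) n⌋ - ⌈40 n / logb 2 n⌉` (natural subtractions). -/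
theorem basis_num (ε : ℝ) (n : ℕ) (h : 100 ≤ ε * Real.logb 2 (n : ℝ)) (hε : ε ≤ 1) :
    2 ^ (9 * n) ≤
      (n - ⌊(1 - ε) * (n : ℝ)⌋₊ - ⌈40 * (n : ℝ) / Real.logb 2 (n : ℝ)⌉₊).factorial := by
  have hL0 : 0 ≤ Real.logb 2 (n : ℝ) := by
    rcases Nat.eq_zero_or_pos n with rfl | hn
    · simp
    · exact Real.logb_nonneg one_lt_two (by exact_mod_cast hn)
  obtain ⟨L, hLdef⟩ : ∃ L, L = Real.logb 2 (n : ℝ) := ⟨_, rfl⟩
  rw [← hLdef] at h hL0 ⊢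
  have hεpos : 0 < ε := by
    by_contra hneg
    have := mul_nonpos_of_nonpos_of_nonneg (not_lt.mp hneg) hL0
    linarith
  have hL100 : 100 ≤ L := by nlinarith
  have hLpos : 0 < L := by linarith
  have hn0 : n ≠ 0 := by
    rintro rfl
    rw [hLdef] at hLpos
    simp at hLpos
  have hnpos : (0 : ℝ) < n := by exact_mod_cast Nat.pos_of_ne_zero hn0
  have h2L : (2 : ℝ) ^ L = n := by
    rw [hLdef]
    exact Real.rpow_logb two_pos (by norm_num) hnpos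
  obtain ⟨S, hS⟩ : ∃ S, S = (2 : ℝ) ^ (L / 2) := ⟨_, rfl⟩
  have hSpos : 0 < S := hS ▸ Real.rpow_pos_of_pos two_pos _
  have hSS : S * S = n := by
    rw [hS, ← Real.rpow_add two_pos, add_halves, h2L]
  have hSL : L ≤ S := hS ▸ h76_le_two_rpow_half L hL100
  obtain ⟨x, hx⟩ : ∃ x, x = (n : ℝ) / L := ⟨_, rfl⟩
  have hLx : L * x = n := by
    rw [hx]
    field_simp
  have hxS : S ≤ x := by
    rw [hx, le_div_iff₀ hLpos]
    nlinarith
  have hx1 : 1 ≤ x := by linarith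
  have hd : ((⌊(1 - ε) * (n : ℝ)⌋₊ : ℕ) : ℝ) ≤ (1 - ε) * n :=
    Nat.floor_le (mul_nonneg (by linarith) hnpos.le)
  have hc : ((⌈40 * (n : ℝ) / L⌉₊ : ℕ) : ℝ) < 40 * (n : ℝ) / L + 1 :=
    Nat.ceil_lt_add_one (by positivity)
  have hc' : 40 * (n : ℝ) / L = 40 * x := by
    rw [hx]
    ring
  have hεn : 100 * x ≤ ε * n := by
    rw [← hLx]
    nlinarith
  obtain ⟨d, hdd⟩ : ∃ d, d = ⌊(1 - ε) * (n : ℝ)⌋₊ := ⟨_, rfl⟩
  obtain ⟨c, hcc⟩ : ∃ c, c = ⌈40 * (n : ℝ) / L⌉₊ := ⟨_, rfl⟩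
  rw [← hdd] at hd
  rw [← hcc, hc'] at hc
  rw [← hdd, ← hcc]
  have hdc : d + c ≤ n := by
    have h1 : ((d + c : ℕ) : ℝ) < n := by
      push_cast
      linarith
    exact_mod_cast h1.le
  obtain ⟨k, hk⟩ : ∃ k, k = n - d - c := ⟨_, rfl⟩
  rw [← hk]
  have hkR : (k : ℝ) = n - d - c := by
    rw [hk, Nat.sub_sub, Nat.cast_sub hdc]
    push_cast
    ring
  have hk59 : 59 * x ≤ k := by
    rw [hkR]
    linarith
  have hj1 : 2 * (k / 2) ≤ k := by omega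
  have hj2 : k ≤ 2 * (k / 2) + 1 := by omega
  have hjk : k / 2 ≤ k := by omega
  obtain ⟨j, hj⟩ : ∃ j, j = k / 2 := ⟨_, rfl⟩
  rw [← hj] at hj1 hj2 hjk
  have hjR1 : (2 : ℝ) * (j : ℝ) ≤ k := by exact_mod_cast hj1
  have hjR2 : (k : ℝ) ≤ 2 * (j : ℝ) + 1 := by exact_mod_cast hj2
  have hjS : S ≤ (j : ℝ) := by linarith
  have hkj : 29 * x ≤ ((k - j : ℕ) : ℝ) := by
    rw [Nat.cast_sub hjk]
    linarith
  have hfac := Nat.factorial_mul_pow_sub_le_factorial hjk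
  have hpow : j ^ (k - j) ≤ k.factorial := by
    calc j ^ (k - j) = 1 * j ^ (k - j) := (one_mul _).symm
      _ ≤ j.factorial * j ^ (k - j) := Nat.mul_le_mul_right _ (Nat.factorial_pos _)
      _ ≤ k.factorial := hfac
  refine le_trans ?_ hpow
  have hreal : (2 : ℝ) ^ (9 * n) ≤ (j : ℝ) ^ (k - j) := by
    calc (2 : ℝ) ^ (9 * n) = (2 : ℝ) ^ (((9 * n : ℕ)) : ℝ) := (Real.rpow_natCast _ _).symm
      _ ≤ (2 : ℝ) ^ ((L / 2) * ((k - j : ℕ) : ℝ)) := by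
          apply Real.rpow_le_rpow_of_exponent_le (by norm_num)
          have h3 := mul_le_mul_of_nonneg_left hkj hLpos.le
          push_cast
          nlinarith
      _ = ((2 : ℝ) ^ (L / 2)) ^ (((k - j : ℕ)) : ℝ) := Real.rpow_mul two_pos.le _ _
      _ = S ^ (k - j) := by rw [Real.rpow_natCast, hS]
      _ ≤ (j : ℝ) ^ (k - j) := pow_le_pow_left₀ hSpos.le hjS _
  exact_mod_cast hreal

end Vale.Agent.Lib.P160
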